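import Vale.Agent.Lib.P249.Main

namespace Vale.Agent.Results.P249.A_near_linear

/-- Near-linear dimension reduction for finite subsets of `l_p`, for every `p ≥ 1`:
any `n` points of `l_p^M` map into `l_p^N` with all `p`-th powers of distances preserved within
`1 ± ε`, where `N ≤ 1 + 16 n (2⌈log₂(n+1)⌉+1)^p log(2n²) / ε²`, independently of `M`. -/
theorem result (p ε : ℝ) (hp : 1 ≤ p) (hε0 : 0 < ε) (hε1 : ε ≤ 1) (n M : ℕ) (hn : 2 ≤ n)
    (x : Fin n → Fin M → ℝ) :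
    ∃ (N : ℕ) (g : Fin n → Fin N → ℝ),
      (N : ℝ) ≤ 1 + 16 * (n : ℝ) * (2 * (Nat.clog 2 (n + 1) : ℝ) + 1) ^ p *
          Real.log (2 * (n : ℝ) ^ 2) / ε ^ 2 ∧
      ∀ u v, (1 - ε) * ∑ k, |x u k - x v k| ^ p ≤ ∑ s, |g u s - g v s| ^ p ∧
        ∑ s, |g u s - g v s| ^ p ≤ (1 + ε) * ∑ k, |x u k - x v k| ^ p :=
  P249.main p ε hp hε0 hε1 n M hn x

end Vale.Agent.Results.P249.A_near_linear
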